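import Vale.Agent.P281.H364.Gen.Fin
import Vale.Agent.P281.H64.Thin.One
import Vale.Agent.P281.H511.Surf.Final
import Vale.Agent.P281.H511.Surf.Defs

open Vale.Agent.P281
open Vale.Agent.P281.H713.TZ.S (Cm kodR kodF kodX kap KapLe)
open Vale.Agent.P281.H511.Surf (IsFibration IsFibre Q1)
open Vale.Agent.P281.H64.Gen (NoExc)
open Vale.Agent.P281.H364.Gen (HasNeat)
open Vale.Agent.P281.H64.Thin (IsThinSet)

namespace Vale.Agent.Results.P281.GeneralFibreOne

/-- Campana's inequality `κ(X, K_X + Δ) ≥ κ(F, K_F + Δ|F) + κ(f | Δ)` in relative dimension one, for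
all compact connected complex manifolds `X` and all rational SNC boundaries `Δ` on `X`.

(A) Let `f : X → Y` be a fibration onto a complex manifold, which has no exceptional divisors (every
prime divisor of `X` is mapped onto `Y` or a prime divisor of `Y`) or has a neat model
`f₁ : (X₁, Δ₁) → Y₁` (a fibration with a commutative square `f ∘ u = v ∘ f₁` as in the problem,
whose exceptional divisors have coefficient one in `Δ₁`, with `B(f₁, Δ₁)` SNC). Then the inequality
holds for all compact connected curves `F` immersed in the fibre of `f` over a point off countably many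
thin closed subsets `H k` of `Y` (closed sets locally contained in hypersurfaces), for instance this
fibre. For all `f`, it holds with, in place of `κ(f | Δ)`, the number `kodF` given by the meromorphic
pluricanonical forms of `Y` whose pull-backs to `X` are tensors with poles at most `m Δ`; `kodF` is at
least `κ(Y, K_Y + Γ)` for all rational boundaries `Γ` of `Y`, SNC at the images of the general points
of `f⁻¹(Γ)`, such that `f : (X, Δ) → (Y, Γ)` is a morphism of orbifolds in codimension one, and at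
least Campana's infimum `κ(f₀ | Δ₀)` if `Γ` is the orbifold base of a fibration linked to
`f₀ : (X₀, Δ₀) → Y₀`.

(B) The inequality with `kodF` holds, too, if `f : X ⇢ Y` is a meromorphic map, holomorphic on the
open subset `Z` (embedded by `j`) of `X`, whose complement has codimension `≥ 2`, and if, over the
complement of a thin closed subset `S` of `Y`, `f` is a proper submersion with connected fibres, and
the horizontal part of `Δ` is étale, for all compact connected curves `F` immersed in a fibre over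
`Y ∖ S`.

(C) The inequality of Q1 holds for all fibrations `f : X → Y` of a compact connected complex manifold
`X` of dimension `2` onto a curve, and all compact connected curves `F` immersed in a fibre of `f`
over a point off a finite set `T`; for `dim X = dim Y` (`F` is a point), and for `dim Y = 0`
(`F = X`). -/
theorem result :
    (∀ {p : ℕ} {X Y : Type} [TopologicalSpace X] [ChartedSpace (Cm (p + 1)) X]
      [TopologicalSpace Y] [ChartedSpace (Cm p) Y] (f : X → Y) (Δ : Set X → ℝ),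
      IsFibration (Cm (p + 1)) (Cm p) f Δ →
      ∃ H : ℕ → Set Y, (∀ k, IsThinSet (Cm p) (H k)) ∧ ∀ y, (∀ k, y ∉ H k) →
        ∀ (F : Type) [TopologicalSpace F] [ChartedSpace (Cm 1) F] (i : F → X),
          IsFibre (Cm (p + 1)) (Cm 1) f y i →
          (kodR (Cm (p + 1)) (Cm 1) i Δ + kodF (p + 1) p Δ (id : X → X) f ≤
              kodX (Cm (p + 1)) Δ ∧
            KapLe (Cm (p + 1)) (Cm p) f Δ (kodF (p + 1) p Δ (id : X → X) f)) ∧
          (NoExc (Cm (p + 1)) (Cm p) f ∨ HasNeat (Cm (p + 1)) (Cm p) f Δ →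
            Q1 (Cm (p + 1)) (Cm p) (Cm 1) f Δ i)) ∧
    (∀ {p : ℕ} {X Z Y F : Type} [TopologicalSpace X] [T2Space X] [CompactSpace X]
      [ConnectedSpace X] [ChartedSpace (Cm (p + 1)) X] [TopologicalSpace Z]
      [ChartedSpace (Cm (p + 1)) Z] [TopologicalSpace Y] [T2Space Y] [ChartedSpace (Cm p) Y]
      [TopologicalSpace F] [CompactSpace F] [ConnectedSpace F] [ChartedSpace (Cm 1) F]
      (j : Z → X) (f : Z → Y) (S : Set Y) (Δ : Set X → ℝ) (Δ' : Set Z → ℝ),
      H64.Thin.Setup (Cm (p + 1)) (Cm p) j f S Δ Δ' →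
      H64.Thin.IsProperFibration (Cm (p + 1)) (Cm p) f S →
      H64.Thin.IsEtale (Cm (p + 1)) (Cm p) f S Δ' →
      ∀ i : F → Z, H64.Thin.InFibre (Cm (p + 1)) (Cm 1) f S i →
        kodR (Cm (p + 1)) (Cm 1) i Δ' + kodF (p + 1) p Δ j f ≤ kodX (Cm (p + 1)) Δ ∧
          KapLe (Cm (p + 1)) (Cm p) f Δ' (kodF (p + 1) p Δ j f)) ∧
    (∀ (X Y : Type) [TopologicalSpace X] [ChartedSpace (Cm 2) X] [TopologicalSpace Y]
      [ChartedSpace (Cm 1) Y] (f : X → Y) (Δ : Set X → ℝ), IsFibration (Cm 2) (Cm 1) f Δ →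
      ∃ T : Set Y, T.Finite ∧ ∀ y ∉ T, ∀ (F : Type) [TopologicalSpace F] [ChartedSpace (Cm 1) F]
        (i : F → X), IsFibre (Cm 2) (Cm 1) f y i → Q1 (Cm 2) (Cm 1) (Cm 1) f Δ i) ∧
    (∀ (n : ℕ) (X Y : Type) [TopologicalSpace X] [ChartedSpace (Cm n) X] [TopologicalSpace Y]
      [ChartedSpace (Cm n) Y] (f : X → Y) (Δ : Set X → ℝ), IsFibration (Cm n) (Cm n) f Δ →
      ∀ y, ∀ (F : Type) [TopologicalSpace F] [ChartedSpace (Cm 0) F] (i : F → X),
        IsFibre (Cm n) (Cm 0) f y i → Q1 (Cm n) (Cm n) (Cm 0) f Δ i) ∧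
    ∀ (n : ℕ) (X Y : Type) [tX : TopologicalSpace X] [cX : ChartedSpace (Cm n) X]
      [tY : TopologicalSpace Y] [cY : ChartedSpace (Cm 0) Y] (f : X → Y) (Δ : Set X → ℝ),
      IsFibration (Cm n) (Cm 0) f Δ →
      kodX (Cm n) Δ + kap (Cm n) (Cm 0) ⟨X, Y, tX, tY, cX, cY, f, Δ⟩ ≤ kodX (Cm n) Δ := by
  refine ⟨fun f Δ hf => Vale.Agent.P281.H364.Gen.fin f Δ hf,
    fun j f S Δ Δ' hf hP hE i hi => H64.Thin.oneS rfl (by simp) hf hP hE hi, ?_, ?_, ?_⟩
  · intro X Y _ _ _ _ f Δ h
    obtain ⟨⟨h1, h2⟩, h3, h4, ⟨h5, h6⟩, h7, h8, h9⟩ := h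
    obtain ⟨T, hT, hF⟩ := H511.Surf.final f h7 h8 Δ h9
    refine ⟨T, hT, ?_⟩
    intro y hy F _ _ i hi
    obtain ⟨i1, i2, i3, i4, i5, i6⟩ := hi
    exact hF F i i4 i5 ⟨y, hy, i6⟩
  · intro n X Y _ _ _ _ f Δ h y F _ _ i _
    obtain ⟨⟨h1, h2⟩, h3, h4, ⟨h5, h6⟩, h7, h8, h9⟩ := h
    exact H511.Surf.final_top f h7 h8 Δ h9 i
  · intro n X Y _ _ _ _ f Δ _
    exact H511.Surf.final_bot f Δ

end Vale.Agent.Results.P281.GeneralFibreOne
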