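import Vale.Agent.P281.H603.SG4.Fin

open Vale.Agent.P281.H713.TZ.S (Cm)
open Vale.Agent.P281.H64.Z
open Vale.Agent.P281.H603.SG4 (Dominates Cls)

namespace Vale.Agent.Results.P281.GenericallyFinite

/-- Let `f₁ : (X₁, Δ₁) → Y₁` and `f : (X, Δ) → Y` be fibrations of relative dimension `d > 0` of
compact connected complex manifolds (`Fibn`), with rational SNC boundaries `Δ₁`, `Δ`, and a
commutative square `f ∘ u = v ∘ f₁` (`Dominates`): `u : X₁ → X` and `v : Y₁ → Y` are holomorphic, `u`
is surjective, `dim X₁ = dim X`, `dim Y₁ = dim Y`; off a small closed set `S ⊆ Y`, `v` is étale; and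

* `K_(X₁) + Δ₁ ≤ u^*(K_X + Δ)` over `X ∖ (f⁻¹(S) ∪ B)`, `B` analytic of codimension at least two, so
  `u` may be ramified along `Δ` (in the orbifold sense), and may have exceptional divisors; or
* `r = 0`, `κ(F₁, K_(F₁) + Δ₁|F₁) ≤ 0 ≤ κ(F, K_F + Δ|F)` for the very general fibres `F₁` of `f₁`, `F`
  of `f`, `Δ` and `Δ₁` have no components which meet the fibres over `Y ∖ S`, and `u` is étale over
  `X ∖ (f⁻¹(S) ∪ B ∪ ⋃ 𝒢)`, `𝒢` finitely many prime divisors.

Let `X₁` be Kähler, and let some very general fibre of `f₁` have a connected finite étale covering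
`F₁` with a Gauss map of rank at least `r`, or which is immersed in a complex torus, with
`r ≤ κ(F₁, K_(F₁) + Δ₁|F₁)`; or let `r = 0`, and `f₁ = g ∘ π`, where `π : X₁ → Z` is a proper
modification (for instance the identity), and some very general fibre of `g : Z → Y₁` has a connected
finite étale covering which is the product of a complex torus or a point and a simply connected
symplectic manifold (`Cls`).
Then (`AddLe`) `κ(X, K_X + Δ) ≥ r + k`, where `k = kY f Δ` is given by the meromorphic pluricanonical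
forms of `Y` whose pull-backs to `X` have poles at most `m Δ`, and `κ(X, K_X + Δ) ≥ r + κ(f | Δ)` if
`dim Y = 1` or if `f` has a neat model. If `F` is a very general fibre of `f`, and
`κ(F, K_F + Δ|F) ≤ r`, then the same holds with `κ(F, K_F + Δ|F)` in place of `r`. -/
theorem result {p d r : ℕ} (hd : 0 < d) {X₁ Y₁ X Y : Type} [TopologicalSpace X₁]
    [Man (p + d) X₁] [TopologicalSpace Y₁] [Man p Y₁]
    [TopologicalSpace X] [Man (p + d) X] [TopologicalSpace Y] [Man p Y]
    (f₁ : X₁ → Y₁) (Δ₁ : Set X₁ → ℝ) (f : X → Y) (Δ : Set X → ℝ)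
    (h₁ : Fibn (p + d) p f₁ Δ₁) (h : Fibn (p + d) p f Δ)
    (hdom : Dominates (p + d) p d f₁ Δ₁ f Δ r) (hcls : Cls (p + d) p d f₁ Δ₁ r) :
    AddLe (p + d) p f Δ r ∧ ForAll (p + d) p d f fun F _ _ i =>
      kR (p + d) d i Δ ≤ r → AddLe (p + d) p f Δ (kR (p + d) d i Δ) :=
  Vale.Agent.P281.H603.SG4.main hd f₁ Δ₁ f Δ h₁ h hdom hcls

end Vale.Agent.Results.P281.GenericallyFinite
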