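import Vale.Agent.P281.H383.MX.Fin

open Vale.Agent.P281.H713.TZ.S (Cm)
open Vale.Agent.P281.H383.MX

namespace Vale.Agent.Results.P281.MixedGauss

/-- Let `f : (X, Δ) → Y` be a fibration of compact connected complex manifolds with a rational SNC
boundary `Δ` (`Fibn`), of relative dimension `k`, and let `f` be a tower of number `a` (`Tower`): it is

* one storey (`Storey`): some very general fibres `F` satisfy `a ≤ κ(F, K_F + Δ|F)` and are curves or
  fibres of a family of elliptic surfaces, or `X` is in Fujiki's class `𝒞` and a finite étale covering of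
  `F` is immersed in a torus and `a ≤ κ(F, K_F + Δ|F)`, or has a Gauss map of rank `≥ a`, or is simply
  connected and symplectic (`a = 0`); or `X` is in class `𝒞` and the mixed Gauss maps (products of
  logarithmic forms `η + ∑ c_j du_j / u_j` with poles along components of `Δ`) of the very general
  fibres have rank `≥ a` (`MixRank`, `PlRank`);
* or `f = h ∘ g`, where `g : (X, Δ) → Z` is a neat storey (or neat and generically finite) and
  `h : (Z, B(g, Δ)) → Y` is a tower, and `a` is the sum of the numbers;
* or `f` is linked, in Campana's sense, to such a tower.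

Then, for `b ≤ a` (for instance `b = κ(F, K_F + Δ|F)`, if this is at most `a`), (`AddLe`)
`κ(X, K_X + Δ) ≥ b + k(f)`, where `k(f)` is the maximal rank of the meromorphic pluricanonical forms of
`Y` whose pull-backs to `X` have poles at most `m Δ`; `κ(X, K_X + Δ) ≥ b + κ(Y, K_Y + Γ)` for a reduced
SNC divisor `Γ` such that `Δ` has coefficient `1` over `Γ`; and `κ(X, K_X + Δ) ≥ b + κ(f | Δ)`, if
`dim Y = 1` or `f` is linked to a neat fibration.

If `f` is linked to `f₁ = h ∘ g` (for instance `f₁ = f`), where `g` is a neat storey of number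
`a ≥ κ(G, K_G + Δ₁|G)` for the very general fibres `G` of `g`, and `h` is a tower whose number is its
relative dimension, then the same holds with `b = κ(F, K_F + Δ|F)` for the very general fibres `F` of
`f`. -/
theorem result :
    (∀ (p k : ℕ) (X Y : Type) [TopologicalSpace X] [Man (p + k) X]
      [TopologicalSpace Y] [Man p Y] (f : X → Y) (Δ : Set X → ℝ) (a b : WithBot ℕ∞),
      b ≤ a → Tower p k X Y f Δ a → AddLe (p + k) p f Δ b) ∧
    (∀ (p k d : ℕ) (X Y X₁ Z Y₁ : Type) [TopologicalSpace X] [Man (p + (k + d)) X]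
      [TopologicalSpace Y] [Man p Y] [TopologicalSpace X₁] [Man (p + (k + d)) X₁]
      [TopologicalSpace Z] [Man (p + k) Z] [TopologicalSpace Y₁] [Man p Y₁] (f : X → Y)
      (g : X₁ → Z) (h : Z → Y₁) (Δ : Set X → ℝ) (Δ₁ : Set X₁ → ℝ) (a : WithBot ℕ∞), 0 < d →
      Lk (p + (k + d)) p f Δ (fun x => h (g x)) Δ₁ →
      Fibn (p + (k + d)) (p + k) g Δ₁ → Neat (p + (k + d)) (p + k) g Δ₁ →
      Storey (p + (k + d)) (p + k) d g Δ₁ a →
      VGen (p + k) (fun z => ∀ (G : Type) [TopologicalSpace G] [T2Space G] [Man d G] (i : G → X₁),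
        Fbr (p + (k + d)) d g z i → Function.Injective i → kR (p + (k + d)) d i Δ₁ ≤ a) →
      Tower p k Z Y₁ h (Bas (p + (k + d)) (p + k) g Δ₁) ((k : ℕ∞) : WithBot ℕ∞) →
      VGen p (fun y => ∀ (F : Type) [TopologicalSpace F] [T2Space F] [Man (k + d) F] (i : F → X),
        Fbr (p + (k + d)) (k + d) f y i → Function.Injective i →
          AddLe (p + (k + d)) p f Δ (kR (p + (k + d)) (k + d) i Δ))) :=
  Vale.Agent.P281.H383.MX.final

end Vale.Agent.Results.P281.MixedGauss
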