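import Vale.Agent.P281.H64.Z11.Fin
import Vale.Agent.P281.H308.TW.Fin

/-!
# P281: towers of fibrations
-/

open Vale.Agent.P281 Vale.Agent.P281.H713.TZ.S Vale.Agent.P281.H64.Z11

noncomputable section

namespace Vale.Agent.Results.P281.Towers

theorem result (p k : ℕ) (X Y : Type) [TopologicalSpace X] [Man (p + k) X] [TopologicalSpace Y]
    [Man p Y] (f : X → Y) (Δ : Set X → ℝ) :
    (∀ a : WithBot ℕ∞, Tower p k X Y f Δ a → AddLe (p + k) p f Δ a) ∧
      (Top p k X Y f Δ → ForAll (p + k) p k f fun F _ _ i => Function.Injective i →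
        AddLe (p + k) p f Δ (kR (p + k) k i Δ)) :=
  main htLe tmLe logLe Vale.Agent.P281.H308.TW.kodFComp fibLink p k X Y f Δ

end Vale.Agent.Results.P281.Towers
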